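import Vale.Agent.Lib.P060.TwoK2.Main

namespace Vale.Agent.Results.P060.A_TwoK2Free

open Vale.Agent.Lib.P060

universe u

/-- Hadwiger's conjecture for graphs with no induced `2K_2`: if `G` is a finite simple graph in
which any two vertex-disjoint edges `ab` and `cd` are joined by at least one edge, then for every
`t`, if `G` has no `K_{t+1}` minor then `G` is `t`-colourable. -/
theorem result : ∀ (V : Type u) [Finite V] (G : SimpleGraph V),
    (∀ a b c d, G.Adj a b → G.Adj c d → a ≠ c → a ≠ d → b ≠ c → b ≠ d →
      G.Adj a c ∨ G.Adj a d ∨ G.Adj b c ∨ G.Adj b d) →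
    ∀ t : ℕ, ¬HasCliqueMinor G (t + 1) → G.Colorable t := by
  intro V _ G hG t ht
  exact hadwiger_twoK2Free G hG t ht

end Vale.Agent.Results.P060.A_TwoK2Free
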