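import Vale.Agent.Lib.P060.EdgeClass

namespace Vale.Agent.Results.P060.EdgesMissAtMostOne

open Vale.Agent.Lib.P060

universe u

/-- Hadwiger's conjecture for graphs in which every edge has at most one common non-neighbour:
if `G` is a finite simple graph such that for every edge `xy` at most one vertex outside `{x, y}`
is adjacent to neither `x` nor `y`, then for every `t`, if `G` has no `K_{t+1}` minor then `G`
is `t`-colourable. -/
theorem result : ∀ (V : Type u) [Finite V] (G : SimpleGraph V),
    (∀ x y, G.Adj x y → ∀ z z', z ≠ x → z ≠ y → z' ≠ x → z' ≠ y →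
      ¬G.Adj z x → ¬G.Adj z y → ¬G.Adj z' x → ¬G.Adj z' y → z = z') →
    ∀ t : ℕ, ¬HasCliqueMinor G (t + 1) → G.Colorable t := by
  intro V _ G hG t ht
  cases nonempty_fintype V
  exact hadwiger_of_peel G (peel_of_edgeAlmostDominating G hG Finset.univ) t ht

end Vale.Agent.Results.P060.EdgesMissAtMostOne
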